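import Vale.Agent.P287Q.H3.A1
import Vale.Agent.P277Z.Oka.All

/-!
# Sheets of a finite projection of an analytic set: definitions
-/

open Filter Topology Set Function
open Vale.Agent.P298.H941 (O pull mk)
open Vale.Agent.P277Z.Oka

noncomputable section

namespace Vale.Agent.P269L.L

variable {E Y : Type} [NormedAddCommGroup E] [NormedSpace ℂ E] [NormedAddCommGroup Y]
  [NormedSpace ℂ Y]

/-- The ideal of the germs at `x` which vanish on `B`. -/
def vi (x : E) (B : Set E) : Ideal (O E) where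
  carrier := {a | ∀ f, AnalyticAt ℂ f x → gm x f = a → Van x B f}
  zero_mem' := fun f hf e => ((gm_eq_zero hf).1 e).mono fun _ h _ => h
  add_mem' := by
    intro a b ha hb f hf e
    obtain ⟨g, hg, rfl⟩ := gm_surj x a
    obtain ⟨h, hh, rfl⟩ := gm_surj x b
    rw [← gm_add hg hh, gm_eq_iff hf (hg.fun_add hh)] at e
    filter_upwards [e, ha g hg rfl, hb h hh rfl] with y h1 h2 h3 hy
    rw [h1, h2 hy, h3 hy, add_zero]
  smul_mem' := by
    intro a b hb f hf e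
    obtain ⟨g, hg, rfl⟩ := gm_surj x a
    obtain ⟨h, hh, rfl⟩ := gm_surj x b
    rw [smul_eq_mul, ← gm_mul hg hh, gm_eq_iff hf (hg.fun_mul hh)] at e
    filter_upwards [e, hb h hh rfl] with y h1 h3 hy
    rw [h1, h3 hy, mul_zero]

theorem mem_vi {x : E} {B : Set E} {f : E → ℂ} (hf : AnalyticAt ℂ f x) :
    gm x f ∈ vi x B ↔ Van x B f :=
  ⟨fun h => h f hf rfl, fun h g hg e => by
    filter_upwards [(gm_eq_iff hg hf).1 e, h] with y h1 h2 hy
    rw [h1, h2 hy]⟩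

theorem vi_radical (x : E) (B : Set E) : (vi x B).IsRadical := by
  rintro a ⟨n, h⟩
  obtain ⟨g, hg, rfl⟩ := gm_surj x a
  rw [← gm_pow hg, mem_vi (hg.fun_pow n)] at h
  exact (mem_vi hg).2 (h.mono fun y h1 h2 => eq_zero_of_pow_eq_zero (h1 h2))

theorem ana_pl {π : E → Y} {x : E} (h : AnalyticAt ℂ π x) :
    AnalyticAt ℂ (fun z => π (x + z) - π x) 0 :=
  (h.comp_of_eq (analyticAt_const.add analyticAt_id) (add_zero x)).sub analyticAt_const

/-- The pull-back of germs at `π x` to germs at `x`. -/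
def pl {π : E → Y} {x : E} (h : AnalyticAt ℂ π x) : O Y →ₐ[ℂ] O E :=
  pull (fun z => π (x + z) - π x) (ana_pl h) (by simp)

theorem pl_gm {π : E → Y} {x : E} (h : AnalyticAt ℂ π x) {r : Y → ℂ} (hr : AnalyticAt ℂ r (π x)) :
    pl h (gm (π x) r) = gm x fun z => r (π z) := by
  rw [gm_eq hr, gm_eq (f := fun z => r (π z)) (hr.comp h), pl, P298.H941.pull_mk]
  exact P298.H941.mk_congr _ _ (.of_forall fun z => by simp)

/-- The map from the germs on the base to the germs of functions on `B`. -/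
def pq (B : Set E) {π : E → Y} {x : E} (h : AnalyticAt ℂ π x) : O Y →+* O E ⧸ vi x B :=
  (Ideal.Quotient.mk (vi x B)).comp (pl h : O Y →+* O E)

/-- Near `y` the part of `B` in `U` is the union of `N` disjoint holomorphic sections of `π`. -/
def Cov (B U : Set E) (π : E → Y) (N : ℕ) (y : Y) : Prop :=
  ∃ φ : Fin N → Y → E, (∀ k, AnalyticAt ℂ (φ k) y) ∧ Injective (fun k => φ k y) ∧
    ∀ᶠ y' in 𝓝 y, ∀ z, (z ∈ U ∧ z ∈ B ∧ π z = y') ↔ ∃ k, z = φ k y'

/-- Near `x` the set `B` is a branched covering with `N` sheets. -/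
def Sheets (B : Set E) (x : E) (π : E → Y) (N : ℕ) : Prop :=
  ∃ δ : Y → ℂ, AnalyticAt ℂ δ (π x) ∧ (¬∀ᶠ y in 𝓝 (π x), δ y = 0) ∧ ∃ U₀ ∈ 𝓝 x,
    (∀ U ∈ 𝓝 x, ∀ᶠ y in 𝓝 (π x), ∀ z ∈ U₀, z ∈ B → π z = y → z ∈ U) ∧
    ∀ U ∈ 𝓝 x, U ⊆ U₀ → ∀ᶠ y in 𝓝 (π x), δ y ≠ 0 → Cov B U π N y

end Vale.Agent.P269L.L
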