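import Vale.Agent.P269L.L.Gev
import Vale.Agent.P287Q.H3.Herm
import Vale.Agent.P277Z.Oka.All

/-!
# The sheets of a finite projection, from a primitive element
-/

open Filter Topology Set Function Polynomial
open Vale.Agent.P298.H941 (O pull mk)
open Vale.Agent.P277Z.Oka
open Vale.Agent.P287Q

noncomputable section

namespace Vale.Agent.P269L.L

variable {E Y : Type} [NormedAddCommGroup E] [NormedSpace ℂ E] [NormedAddCommGroup Y]
  [NormedSpace ℂ Y] {B : Set E} {x : E} {π : E → Y}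

/-- Properness of a projection with an isolated point in the fibre. -/
theorem proper [FiniteDimensional ℂ E] [FiniteDimensional ℂ Y] (hB : H3.An B x) (hπ : AnalyticAt ℂ π x)
    (hi : ∀ᶠ z in 𝓝 x, z ∈ B → π z = π x → z = x) : ∃ U₀ ∈ 𝓝 x,
    ∀ U ∈ 𝓝 x, ∀ᶠ y in 𝓝 (π x), ∀ z ∈ U₀, z ∈ B → π z = y → z ∈ U := by
  have := FiniteDimensional.proper ℂ E
  have := FiniteDimensional.complete ℂ Y
  obtain ⟨K, hK, h1, h2⟩ := local_compact_nhds
    (hi.and (hB.closed_near.and hπ.eventually_analyticAt))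
  refine ⟨K, hK, fun U hU => h2.eventually_forall_of_forall_eventually
    (P := fun y z => z ∈ B → π z = y → z ∈ U) fun z hz => ?_⟩
  obtain ⟨k1, k2, k3⟩ := h1 hz
  by_cases e : z = x
  · subst e
    filter_upwards [(continuous_snd.tendsto (π z, z)).eventually_mem hU] with p h _ _ using h
  by_cases e' : z ∈ closure B
  · have h3 : ContinuousAt (fun p : Y × E => π p.2 - p.1) (π x, z) :=
      (k3.continuousAt.comp_of_eq continuousAt_snd rfl).sub continuousAt_fst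
    exact (h3.eventually_ne (y := 0) (sub_ne_zero.2 fun h => e (k1 (k2 e') h))).mono
      fun p hp _ h => absurd (sub_eq_zero.2 h) hp
  · filter_upwards [(continuous_snd.tendsto (π x, z)).eventually_mem
      (isClosed_closure.isOpen_compl.mem_nhds e')] with p h h' _ using absurd (subset_closure h') h

section val

variable [FiniteDimensional ℂ Y] (hπ : AnalyticAt ℂ π x) {n N : ℕ} (c : E ≃L[ℂ] (Fin n → ℂ))
  {a : Y → Fin n → Fin N → ℂ} (ha : AnalyticAt ℂ a (π x)) (h0 : a (π x) = 0)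
  (hz : ∀ᶠ z in 𝓝 x, z ∈ B → ∀ i, H3.mp (a (π z) i) (c (z - x) i) = 0)

theorem ana_crd (i : Fin n) : AnalyticAt ℂ (fun z => c (z - x) i) x :=
  analyticAt_pi_iff.1 ((c.analyticAt _).comp (analyticAt_id.sub analyticAt_const)) i

include ha h0 hz in
/-- A homomorphism from the ring of germs on `B` to a ring of values is the evaluation at the
points given by the values of the coordinates. -/
theorem val {T : Type} {L : Filter T} {m : T → Y} (hm : Tendsto m L (𝓝 (π x)))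
    (θ : O E ⧸ vi x B →+* Germ L ℂ) (hθ : θ.comp (pq B hπ) = gev hm) {ζ : T → Fin n → ℂ}
    (hζ : ∀ i, θ (Ideal.Quotient.mk _ (gm x fun z => c (z - x) i)) =
      ((fun p => ζ p i : T → ℂ) : Germ L ℂ)) :
    Tendsto (fun p => x + c.symm (ζ p)) L (𝓝 x) ∧ ∀ h, AnalyticAt ℂ h x →
      θ (Ideal.Quotient.mk _ (gm x h)) = ((fun p => h (x + c.symm (ζ p)) : T → ℂ) : Germ L ℂ) := by
  have hq : ∀ r, AnalyticAt ℂ r (π x) → θ (Ideal.Quotient.mk _ (gm x fun z => r (π z))) =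
      ((fun p => r (m p) : T → ℂ) : Germ L ℂ) := fun r hr => by
    rw [← gev_gm hm hr, ← hθ, ← pl_gm hπ hr]
    rfl
  have haij : ∀ i j, AnalyticAt ℂ (fun y => a y i j) (π x) := fun i j =>
    analyticAt_pi_iff.1 (analyticAt_pi_iff.1 ha i) j
  have h1 : ∀ᶠ p in L, ∀ i, H3.mp (a (m p) i) (ζ p i) = 0 := eventually_all.2 fun i => by
    have k1 := ana_crd (x := x) c i
    have k2 : ∀ j : Fin N, AnalyticAt ℂ (fun z => a (π z) i j * c (z - x) i ^ (j : ℕ)) x :=
      fun j => ((haij i j).fun_comp hπ).fun_mul (k1.fun_pow _)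
    have k3 := Ideal.Quotient.eq_zero_iff_mem.2 ((mem_vi ((k1.fun_pow N).fun_add
      (Finset.analyticAt_fun_sum _ fun j _ => k2 j))).2 (hz.mono fun z h h' => h h' i))
    have k4 := congrArg θ k3
    rw [gm_add (k1.fun_pow N) (Finset.analyticAt_fun_sum _ fun j _ => k2 j), gm_pow k1,
      gm_sum _ k2, map_add, map_add, map_pow, map_pow, map_sum, map_sum, map_zero, hζ,
      Finset.sum_congr rfl (g := fun j =>
        ((fun p => a (m p) i j * ζ p i ^ (j : ℕ) : T → ℂ) : Germ L ℂ)) fun j _ => by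
          rw [gm_mul ((haij i j).fun_comp hπ) (k1.fun_pow _), gm_pow k1, map_mul, map_mul, map_pow,
            map_pow, hζ, hq _ (haij i j)]
          rfl, ← coe_sum] at k4
    exact Germ.coe_eq.1 k4
  have hr : ∀ ξ : Fin n → ℂ, (∀ i, H3.mp (a (π x) i) (ξ i) = 0) → ξ = 0 := fun ξ h =>
    funext fun i => eq_zero_of_pow_eq_zero (n := N) (by simpa [H3.mp, h0] using h i)
  have he : AnalyticAt ℂ (fun w : (Fin n → ℂ) × Y => x + c.symm w.1) (0, π x) :=
    analyticAt_const.add ((c.symm.analyticAt _).comp analyticAt_fst)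
  have he0 : (fun w : (Fin n → ℂ) × Y => x + c.symm w.1) (0, π x) = x := by simp
  refine ⟨fun U hU => ?_, fun h hh => ?_⟩
  · have k1 := H3.Herm.near ha (Q := fun w => x + c.symm w.1 ∈ U) fun ξ hξ => by
      rw [hr ξ hξ]
      exact ((he.continuousAt.tendsto.mono_right (congrArg 𝓝 he0).le).eventually_mem hU).mono
        fun _ h _ => h
    exact mem_map.2 (((hm.eventually k1).and h1).mono fun p k => k.1 _ k.2)
  · obtain ⟨γ, k1, k2⟩ := H3.stHerm Y n N a (π x) (fun w => h (x + c.symm w.1)) ha fun ξ hξ => by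
      rw [hr ξ hξ]
      exact hh.comp_of_eq he he0
    have k3 : ∀ α, AnalyticAt ℂ (fun y => γ y α) (π x) := analyticAt_pi_iff.1 k1
    have k4 : ∀ α : Fin n → Fin N, AnalyticAt ℂ (fun z => ∏ i, c (z - x) i ^ (α i : ℕ)) x :=
      fun α => Finset.analyticAt_fun_prod _ fun i _ => (ana_crd c i).fun_pow _
    have k5 : ∀ α, AnalyticAt ℂ (fun z => γ (π z) α * ∏ i, c (z - x) i ^ (α i : ℕ)) x :=
      fun α => ((k3 α).fun_comp hπ).fun_mul (k4 α)
    have k6 : Ideal.Quotient.mk (vi x B) (gm x h) = Ideal.Quotient.mk _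
        (gm x fun z => ∑ α, γ (π z) α * ∏ i, c (z - x) i ^ (α i : ℕ)) := by
      refine dq_inj x B ?_
      rw [dq_mk hh, dq_mk (Finset.analyticAt_fun_sum _ fun α _ => k5 α)]
      refine Germ.coe_eq.2 (eventually_nhdsWithin_iff.2 ?_)
      filter_upwards [hz, hπ.continuousAt.tendsto.eventually k2] with z l1 l2 l3
      simpa using l2 _ (l1 l3)
    rw [k6, gm_sum _ k5, map_sum, map_sum, Finset.sum_congr rfl (g := fun α =>
      ((fun p => γ (m p) α * ∏ i, ζ p i ^ (α i : ℕ) : T → ℂ) : Germ L ℂ)) fun α _ => by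
        rw [gm_mul ((k3 α).fun_comp hπ) (k4 α), gm_prod _ fun i => (ana_crd c i).fun_pow _, map_mul,
          map_mul, map_prod, map_prod, hq _ (k3 α), Finset.prod_congr rfl (g := fun i =>
            ((fun p => ζ p i ^ (α i : ℕ) : T → ℂ) : Germ L ℂ)) fun i _ => by
              rw [gm_pow (ana_crd c i), map_pow, map_pow, hζ]
              rfl, ← coe_prod]
        rfl, ← coe_sum]
    refine Germ.coe_eq.2 ?_
    filter_upwards [hm.eventually k2, h1] with p l1 l2 using (l1 _ l2).symm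

include ha h0 hz in
/-- The sheets, from a primitive element. -/
theorem sheets_of [FiniteDimensional ℂ E] (hB : H3.An B x)
    (hi : ∀ᶠ z in 𝓝 x, z ∈ B → π z = π x → z = x) (u : O E ⧸ vi x B) {χ α β : (O Y)[X]} {δ : O Y}
    (hδ : δ ≠ 0) (hχ : χ.Monic) (hs : α * χ + β * derivative χ = C δ)
    (hu : pq B hπ δ * χ.eval₂ (pq B hπ) u = 0)
    (hd : ∀ d, ∃ p : (O Y)[X], pq B hπ δ * d = p.eval₂ (pq B hπ) u)
    (hθ : ∀ (S : Type) [CommRing S] (ψ : O Y →+* S) (t : S), IsUnit (ψ δ) → χ.eval₂ ψ t = 0 →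
      ∃ θ : O E ⧸ vi x B →+* S, θ.comp (pq B hπ) = ψ ∧ θ u = t) :
    Sheets B x π χ.natDegree := by
  obtain ⟨u, rfl⟩ := Ideal.Quotient.mk_surjective u
  obtain ⟨u, au, rfl⟩ := gm_surj x u
  obtain ⟨δ, aδ, rfl⟩ := gm_surj (π x) δ
  obtain ⟨P, aP, mP, eP⟩ := Wa.exists_monic (π x) hχ
  choose p hp using fun i => hd (Ideal.Quotient.mk _ (gm x fun z => c (z - x) i))
  choose R aR eR using fun i => pg_surj (π x) (le_refl (p i).natDegree)
  let ζ : Y × ℂ → Fin n → ℂ := fun w i => (δ w.1)⁻¹ * (R i w.1).eval w.2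
  let Z : Y × ℂ → E := fun w => x + c.symm (ζ w)
  let L : Filter (Y × ℂ) := comap Prod.fst (𝓝 (π x)) ⊓ 𝓟 {w | δ w.1 ≠ 0 ∧ (P w.1).eval w.2 = 0}
  have hm : Tendsto Prod.fst L (𝓝 (π x)) := tendsto_comap.mono_left inf_le_left
  have hL : ∀ᶠ w in L, δ w.1 ≠ 0 ∧ (P w.1).eval w.2 = 0 := mem_inf_of_right (mem_principal_self _)
  have hev : ∀ {Q : Y × ℂ → Prop}, (∀ᶠ w in L, Q w) →
      ∀ᶠ y in 𝓝 (π x), δ y ≠ 0 → ∀ t, (P y).eval t = 0 → Q (y, t) := fun {Q} h => by
    filter_upwards [eventually_comap.1 (eventually_inf_principal.1 h)] with y k k1 t k2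
    exact k (y, t) rfl ⟨k1, k2⟩
  have e1 : χ.eval₂ (gev hm) ((Prod.snd : Y × ℂ → ℂ) : Germ L ℂ) = 0 := by
    rw [← eP, gev_pg hm aP]
    exact Germ.coe_eq.2 (hL.mono fun _ h => h.2)
  have e2 : gev hm (gm (π x) δ) * ((fun w => (δ w.1)⁻¹ : Y × ℂ → ℂ) : Germ L ℂ) = 1 := by
    rw [gev_gm hm aδ]
    exact Germ.coe_eq.2 (hL.mono fun _ h => mul_inv_cancel₀ h.1)
  obtain ⟨θ, θ1, θ2⟩ := hθ _ (gev hm) _ (IsUnit.of_mul_eq_one _ e2) e1
  have e3 : ∀ i, θ (Ideal.Quotient.mk _ (gm x fun z => c (z - x) i)) =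
      ((fun w => ζ w i : Y × ℂ → ℂ) : Germ L ℂ) := fun i => by
    have k := congrArg θ (hp i)
    rw [map_mul, hom_eval₂, θ1, θ2, ← eR i, gev_pg hm (aR i), ← RingHom.comp_apply, θ1] at k
    rw [← one_mul (θ _), ← e2, mul_comm (gev hm _), mul_assoc, k]
    rfl
  obtain ⟨v1, v2⟩ := val hπ c ha h0 hz hm θ θ1 e3
  have a1 : ∀ᶠ w in L, Z w ∈ B := by
    obtain ⟨k, g, ag, hg⟩ := hB
    have k1 : ∀ j, ∀ᶠ w in L, g (Z w) j = 0 := fun j => by
      have k2 := v2 _ (analyticAt_pi_iff.1 ag j)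
      rw [Ideal.Quotient.eq_zero_iff_mem.2 ((mem_vi (analyticAt_pi_iff.1 ag j)).2
        (hg.mono fun z h h' => congrFun (h.1 h') j)), map_zero] at k2
      exact Germ.coe_eq.1 k2.symm
    filter_upwards [v1.eventually hg, eventually_all.2 k1] with w k2 k3 using k2.2 (funext k3)
  have a2 : ∀ᶠ w in L, π (Z w) = w.1 := by
    let b := (Module.finBasis ℂ Y).equivFunL
    have k1 : ∀ j, ∀ᶠ w in L, b (π (Z w)) j = b w.1 j := fun j => by
      have k0 : AnalyticAt ℂ (fun y => b y j) (π x) := analyticAt_pi_iff.1 (b.analyticAt _) j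
      have k2 := v2 _ (k0.fun_comp hπ)
      rw [← pl_gm hπ k0] at k2
      have k3 := RingHom.congr_fun θ1 (gm (π x) fun y => b y j)
      rw [gev_gm hm k0] at k3
      exact Germ.coe_eq.1 (k2.symm.trans k3)
    filter_upwards [eventually_all.2 k1] with w k2 using b.injective (funext k2)
  have a3 : ∀ᶠ w in L, u (Z w) = w.2 := Germ.coe_eq.1 ((v2 u au).symm.trans θ2)
  have a4 : ∀ᶠ w in L, (derivative (P w.1)).eval w.2 ≠ 0 := by
    have k := congrArg (eval₂ (gev hm) ((Prod.snd : Y × ℂ → ℂ) : Germ L ℂ)) hs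
    rw [eval₂_add, eval₂_mul, eval₂_mul, e1, mul_zero, zero_add, eval₂_C, gev_gm hm aδ, ← eP,
      ← pg_der aP, gev_pg hm (Nug.pf_der aP)] at k
    generalize β.eval₂ (gev hm) _ = b at k
    induction b using Germ.inductionOn with | h b => ?_
    filter_upwards [Germ.coe_eq.1 k, hL] with w k1 k2 k3
    exact k2.1 (k1.symm.trans (mul_eq_zero_of_right _ k3))
  have dπ : ∀ r, dq x B (pq B hπ r) = gev (tendsto_base hπ B) r := RingHom.congr_fun (dq_pq hπ B)
  have b1 : ∀ᶠ z in 𝓝[B] x, δ (π z) * (P (π z)).eval (u z) = 0 := by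
    have k := congrArg (dq x B) hu
    rw [map_mul, hom_eval₂, dq_pq, dπ, dq_mk au, ← eP, gev_pg _ aP, gev_gm _ aδ, map_zero] at k
    exact Germ.coe_eq.1 k
  have b2 : ∀ i, ∀ᶠ z in 𝓝[B] x, δ (π z) * c (z - x) i = (R i (π z)).eval (u z) := fun i => by
    have k := congrArg (dq x B) (hp i)
    rw [map_mul, hom_eval₂, dq_pq, dπ, dq_mk au, ← eR i, gev_pg _ (aR i), gev_gm _ aδ,
      dq_mk (ana_crd c i)] at k
    exact Germ.coe_eq.1 k
  have b3 : ∀ᶠ z in 𝓝 x, z ∈ B → δ (π z) ≠ 0 →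
      (P (π z)).eval (u z) = 0 ∧ z = Z (π z, u z) := by
    filter_upwards [eventually_nhdsWithin_iff.1 (b1.and (eventually_all.2 b2))] with z k k1 k2
    refine ⟨(mul_eq_zero.1 (k k1).1).resolve_left k2, ?_⟩
    have k3 : ζ (π z, u z) = c (z - x) := funext fun i => by
      simp only [ζ, ← (k k1).2 i, inv_mul_cancel_left₀ k2]
    simp only [Z, k3, c.symm_apply_apply, add_sub_cancel]
  obtain ⟨U₀, hU₀, pr⟩ := proper hB hπ hi
  refine ⟨δ, aδ, fun h => hδ ((gm_eq_zero aδ).2 h), _, inter_mem hU₀ b3,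
    fun U hU => (pr U hU).mono fun y h z k => h z k.1, fun U hU hUU => ?_⟩
  have c1 := hev ((v1.eventually_mem hU).and (a1.and (a2.and a3)))
  filter_upwards [c1.eventually_nhds, hev a4, aP.eventually, aδ.eventually_analyticAt,
    eventually_all.2 fun i => (aR i).eventually] with y k1 k2 k3 k4 k5 k6
  obtain ⟨τ, t1, t2⟩ := roots_hol k3 mP (k2 k6)
  refine ⟨fun k y' => Z (y', τ k y'), fun k => analyticAt_const.add ((c.symm.analyticAt _).comp
    (analyticAt_pi_iff.2 fun i => (k4.fun_inv k6).fun_mul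
      (((k5 i).ana_pf (τ k y)).comp_of_eq ((t1 k).prod analyticAt_id) rfl))), fun k l e => ?_, ?_⟩
  · have k7 := fun k => (k1.self_of_nhds k6 _ ((t2.self_of_nhds.2 _).2 ⟨k, rfl⟩)).2.2.2
    exact t2.self_of_nhds.1 ((k7 k).symm.trans ((congrArg u e).trans (k7 l)))
  · filter_upwards [k1, t2, k4.continuousAt.eventually_ne k6] with y' l1 l2 l3 z
    refine ⟨fun ⟨l4, l5, l6⟩ => ?_, fun ⟨k, e⟩ => ?_⟩
    · subst l6
      obtain ⟨l7, l8⟩ := (hUU l4).2 l5 l3
      obtain ⟨k, e⟩ := (l2.2 _).1 l7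
      exact ⟨k, l8.trans (by rw [e])⟩
    · obtain ⟨l4, l5, l6, -⟩ := l1 l3 _ ((l2.2 _).2 ⟨k, rfl⟩)
      exact e ▸ ⟨l4, l5, l6⟩

end val

end Vale.Agent.P269L.L
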