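import Vale.Agent.P269L.L.Defs

/-!
# Quasi-finite projections of an analytic germ are finite
-/

open Filter Topology Set Function Polynomial IsLocalRing
open Vale.Agent.P298.H941
open Vale.Agent.P277Z.Oka
open Vale.Agent.P287Q

noncomputable section

namespace Vale.Agent.P269L.L

/-- an element of the radical of an extended ideal satisfies a distinguished equation -/
theorem dist {R S : Type} [CommRing R] [Nontrivial R] [CommRing S] {ψ : R →+* S} (h : ψ.Finite)
    {I : Ideal R} {u : S} {k : ℕ} (hu : u ^ k ∈ I.map ψ) : ∃ d, ∀ N, d ≤ N →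
      ∃ c : Fin N → R, (∀ j, c j ∈ I) ∧ u ^ N + ∑ j, ψ (c j) * u ^ (j : ℕ) = 0 := by
  algebraize [ψ]
  obtain ⟨p, h1, h2, h3⟩ := exists_monic_aeval_eq_zero_forall_mem_of_mem_map (R := R) (I := I)
    (x := u ^ (k + 1)) (pow_succ' u k ▸ Ideal.mul_mem_left _ u hu)
  refine ⟨p.natDegree * (k + 1), fun N hN => ?_⟩
  obtain ⟨m, rfl⟩ := Nat.exists_eq_add_of_le hN
  have h4 : p.map (Ideal.Quotient.mk I) = X ^ p.natDegree := by
    ext i
    rw [coeff_map, coeff_X_pow]
    split_ifs with hi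
    · rw [hi, h1.coeff_natDegree, map_one]
    · exact Ideal.Quotient.eq_zero_iff_mem.2 (h3 i hi)
  have h5 : (expand R (k + 1) p).Monic := h1.expand k.succ_pos
  have h6 : (expand R (k + 1) p * X ^ m).natDegree = p.natDegree * (k + 1) + m := by
    rw [h5.natDegree_mul (monic_X_pow m), natDegree_expand, natDegree_X_pow]
  have h7 : (expand R (k + 1) p * X ^ m).map (Ideal.Quotient.mk I) =
      X ^ (p.natDegree * (k + 1) + m) := by
    rw [Polynomial.map_mul, map_expand, h4, map_pow, expand_X, Polynomial.map_pow, map_X,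
      ← pow_mul, ← pow_add, mul_comm]
  have h8 : aeval u (expand R (k + 1) p * X ^ m) = 0 := by
    rw [map_mul, expand_aeval, h2, zero_mul]
  refine ⟨fun j => (expand R (k + 1) p * X ^ m).coeff j, fun j => ?_, ?_⟩
  · rw [← Ideal.Quotient.eq_zero_iff_mem, ← coeff_map, h7, coeff_X_pow, if_neg j.2.ne]
  · rw [(h5.mul (monic_X_pow m)).as_sum, h6, map_add, map_sum, Finset.sum_range] at h8
    simp only [map_pow, aeval_X, map_mul, aeval_C] at h8
    exact h8

section step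

variable {Y : Type} [NormedAddCommGroup Y] [NormedSpace ℂ Y] {Q : Type} [CommRing Q]


/-- elimination of one variable -/
theorem step [FiniteDimensional ℂ Y] (φ : O (ℂ × Y) →+* Q) (hφ : φ.Finite) {k : ℕ}
    (hk : φ (fstG Y) ^ k ∈ (maximalIdeal (O Y)).map (φ.comp (sndH Y : O Y →+* O (ℂ × Y)))) :
    (φ.comp (sndH Y : O Y →+* O (ℂ × Y))).Finite := by
  rw [← Ideal.map_map] at hk
  obtain ⟨N, hN⟩ := dist hφ hk
  obtain ⟨c, h1, h2⟩ := hN N le_rfl
  have h3 : ∀ j, inlH Y (c j) = 0 := fun j =>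
    (Ideal.map_le_iff_le_comap (K := RingHom.ker (inlH Y))).2 (fun a ha => by
      change inlH Y (sndH Y a) = 0
      rw [inlH_sndH, (P298.H941.mem_maximalIdeal a).1 ha, map_zero]) (h1 j)
  have h4 : inlH Y (fstG Y ^ N + ∑ j, c j * fstG Y ^ (j : ℕ)) = zz ^ N * 1 := by
    simp only [map_add, map_sum, map_mul, map_pow, h3, zero_mul, Finset.sum_const_zero, add_zero,
      inlH_fstG, mul_one]
  have h5 : ∀ a ∈ Ideal.span {fstG Y ^ N + ∑ j, c j * fstG Y ^ (j : ℕ)}, φ a = 0 := fun a ha => by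
    obtain ⟨b, rfl⟩ := Ideal.mem_span_singleton'.1 ha
    simp only [map_add, map_sum, map_mul, map_pow, h2, mul_zero]
  exact (RingHom.Finite.of_comp_finite (f := Ideal.Quotient.mk _)
    (g := Ideal.Quotient.lift _ φ h5) hφ).comp (finite_quot _ isUnit_one h4)

/-- pull-back along a linear map -/
def pc {A A' : Type} [NormedAddCommGroup A] [NormedSpace ℂ A] [NormedAddCommGroup A']
    [NormedSpace ℂ A'] (L : A' →L[ℂ] A) : O A →+* O A' := pull L (L.analyticAt 0) (map_zero L)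

theorem pc_surj {A A' : Type} [NormedAddCommGroup A] [NormedSpace ℂ A] [NormedAddCommGroup A']
    [NormedSpace ℂ A'] (L : A' ≃L[ℂ] A) : Surjective (pc (L : A' →L[ℂ] A)) := fun a => by
  obtain ⟨f, hf, rfl⟩ := exists_rep a
  exact ⟨pc (L.symm : A →L[ℂ] A') (mk f hf),
    mk_congr _ _ (.of_forall fun z => congrArg f (L.symm_apply_apply z))⟩

/-- elimination of several variables -/
theorem steps [FiniteDimensional ℂ Y] (n : ℕ) : ∀ (φ : O ((Fin n → ℂ) × Y) →+* Q), φ.Finite →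
    (∀ a, ev0 _ a = 0 → ∃ k, φ a ^ k ∈
      (maximalIdeal (O Y)).map (φ.comp (pc (ContinuousLinearMap.snd ℂ _ Y)))) →
    (φ.comp (pc (ContinuousLinearMap.snd ℂ _ Y))).Finite := by
  induction n with
  | zero =>
    exact fun φ hφ _ => hφ.comp (.of_surjective _
      (pc_surj (ContinuousLinearEquiv.uniqueProd ℂ Y (Fin 0 → ℂ))))
  | succ n ih =>
    intro φ hφ h
    let L : ((Fin (n + 1) → ℂ) × Y) ≃L[ℂ] (ℂ × ((Fin n → ℂ) × Y)) :=
      (((Fin.consEquivL ℂ fun _ => ℂ).symm).prodCongr (.refl ℂ Y)).trans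
        (ContinuousLinearEquiv.prodAssoc ℂ _ _ _)
    let φ' := φ.comp (pc L.toContinuousLinearMap)
    have e : (φ'.comp (sndH ((Fin n → ℂ) × Y) : O ((Fin n → ℂ) × Y) →+* _)).comp
        (pc (ContinuousLinearMap.snd ℂ (Fin n → ℂ) Y)) =
        φ.comp (pc (ContinuousLinearMap.snd ℂ _ Y)) := RingHom.ext fun a => by
      obtain ⟨f, hf, rfl⟩ := exists_rep a
      exact congrArg φ (mk_congr _ _ (.of_forall fun _ => rfl))
    have h1 : φ'.Finite := hφ.comp (.of_surjective _ (pc_surj L))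
    rw [← e] at h ⊢
    refine ih _ ?_ fun a ha => h (pc L.toContinuousLinearMap (sndH _ a)) ?_
    · obtain ⟨k, hk⟩ := h (pc L.toContinuousLinearMap (fstG _)) ((ev0_pull _ _ _ _).trans rfl)
      rw [← Ideal.map_map] at hk
      refine step φ' h1 (k := k) (Ideal.map_mono (Ideal.map_le_iff_le_comap.2 fun a ha => ?_) hk)
      exact (P298.H941.mem_maximalIdeal _).2
        ((ev0_pull _ _ _ _).trans ((P298.H941.mem_maximalIdeal a).1 ha))
    · exact (ev0_pull _ _ _ _).trans ((ev0_pull _ _ _ _).trans ha)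

end step

variable {E Y : Type} [NormedAddCommGroup E] [NormedSpace ℂ E] [NormedAddCommGroup Y]
  [NormedSpace ℂ Y] [FiniteDimensional ℂ E] [FiniteDimensional ℂ Y] {B : Set E} {x : E}
  {π : E → Y}

/-- the functions which vanish at `x` are nilpotent on the fibre -/
theorem nil (hB : H3.An B x) (hπ : AnalyticAt ℂ π x)
    (h : ∀ᶠ z in 𝓝 x, z ∈ B → π z = π x → z = x) {f : E → ℂ} (hf : AnalyticAt ℂ f x)
    (h0 : f x = 0) : ∃ k, Ideal.Quotient.mk (vi x B) (gm x f) ^ k ∈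
      (maximalIdeal (O Y)).map (pq B hπ) := by
  obtain ⟨m, g, h1, h2⟩ := hB
  let b := Module.finBasis ℂ Y
  let r : Fin (Module.finrank ℂ Y) → Y → ℂ := fun j y => b.repr (y - π x) j
  have hr : ∀ j, AnalyticAt ℂ (r j) (π x) := fun j =>
    ((LinearMap.toContinuousLinearMap (b.coord j)).analyticAt _).comp
      (analyticAt_id.sub analyticAt_const)
  let G : Fin m ⊕ Fin (Module.finrank ℂ Y) → E → ℂ :=
    Sum.elim (fun i z => g z i) fun j z => r j (π z)
  have hG : ∀ i, AnalyticAt ℂ (G i) x :=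
    Sum.rec (analyticAt_pi_iff.1 h1) fun j => (hr j).comp hπ
  obtain ⟨k, hk⟩ := nul_all E _ x G hG f hf (by
    filter_upwards [h, h2] with z k1 k2 k3
    rw [k1 (k2.2 (funext fun i => k3 (.inl i))) (sub_eq_zero.1
      (b.repr.map_eq_zero_iff.1 (Finsupp.ext fun j => k3 (.inr j)))), h0])
  rw [in_iff hG (hf.fun_pow k), gm_pow hf] at hk
  refine ⟨k, ?_⟩
  rw [← map_pow, ← Ideal.mem_comap]
  refine Ideal.span_le.2 ?_ hk
  rintro _ ⟨i | j, rfl⟩
  · have e : Ideal.Quotient.mk (vi x B) (gm x (G (.inl i))) = 0 :=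
      Ideal.Quotient.eq_zero_iff_mem.2
        ((mem_vi (hG _)).2 (h2.mono fun z k1 k2 => congrFun (k1.1 k2) i))
    exact Ideal.mem_comap.2 (e ▸ zero_mem _)
  · have e : pq B hπ (gm (π x) (r j)) = Ideal.Quotient.mk (vi x B) (gm x (G (.inr j))) :=
      congrArg (Ideal.Quotient.mk (vi x B)) (pl_gm hπ (hr j))
    refine Ideal.mem_comap.2 (e ▸ Ideal.mem_map_of_mem _ ?_)
    rw [P298.H941.mem_maximalIdeal, ev0_gm (hr j)]
    simp [r]

theorem finite (hB : H3.An B x) (hπ : AnalyticAt ℂ π x)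
    (h : ∀ᶠ z in 𝓝 x, z ∈ B → π z = π x → z = x) : (pq B hπ).Finite := by
  let L : E ≃L[ℂ] (Fin (Module.finrank ℂ E) → ℂ) := ContinuousLinearEquiv.ofFinrankEq (by simp)
  have h1 : AnalyticAt ℂ (fun z => (L z, π (x + z) - π x)) 0 :=
    (L.toContinuousLinearMap.analyticAt 0).prod (ana_pl hπ)
  let γ : O ((Fin (Module.finrank ℂ E) → ℂ) × Y) →+* O E :=
    pull (fun z => (L z, π (x + z) - π x)) h1 (by simp)
  have h2 : Surjective γ := fun a => by
    obtain ⟨f, hf, rfl⟩ := exists_rep a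
    exact ⟨pc (L.symm.toContinuousLinearMap.comp (ContinuousLinearMap.fst ℂ _ Y)) (mk f hf),
      mk_congr _ _ (.of_forall fun z => congrArg f (L.symm_apply_apply z))⟩
  have e : ((Ideal.Quotient.mk (vi x B)).comp γ).comp (pc (ContinuousLinearMap.snd ℂ _ Y)) =
      pq B hπ := RingHom.ext fun a => by
    obtain ⟨f, hf, rfl⟩ := exists_rep a
    rfl
  rw [← e]
  refine steps _ _ (.of_surjective _ (Ideal.Quotient.mk_surjective.comp h2)) fun a ha => ?_
  obtain ⟨f, hf, e'⟩ := gm_surj x (γ a)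
  rw [e, RingHom.comp_apply, ← e']
  exact nil hB hπ h hf (by rw [← ev0_gm hf, e']; exact (ev0_pull _ _ _ _).trans ha)

/-- **Finiteness.** -/
theorem fin (hB : H3.An B x) (hπ : AnalyticAt ℂ π x)
    (h : ∀ᶠ z in 𝓝 x, z ∈ B → π z = π x → z = x) : (pq B hπ).Finite ∧
    ∀ (ι : Type) [Fintype ι] (f : ι → E → ℂ), (∀ i, AnalyticAt ℂ (f i) x ∧ f i x = 0) →
      ∃ (N : ℕ) (a : Y → ι → Fin N → ℂ), AnalyticAt ℂ a (π x) ∧ a (π x) = 0 ∧
        ∀ᶠ z in 𝓝 x, z ∈ B → ∀ i, H3.mp (a (π z) i) (f i z) = 0 := by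
  refine ⟨finite hB hπ h, fun ι _ f hf => ?_⟩
  choose k hk using fun i => nil hB hπ h (hf i).1 (hf i).2
  choose d hd using fun i => dist (finite hB hπ h) (hk i)
  choose c h1 h2 using fun i => hd i (Finset.univ.sup d) (Finset.le_sup (Finset.mem_univ i))
  choose a h3 h4 using fun i j => gm_surj (π x) (c i j)
  refine ⟨_, fun y i j => a i j y, analyticAt_pi_iff.2 fun i => analyticAt_pi_iff.2 (h3 i),
    funext₂ fun i j => ?_, ?_⟩
  · exact (ev0_gm (h3 i j)).symm.trans ((P298.H941.mem_maximalIdeal _).1 (h4 i j ▸ h1 i j))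
  · refine (eventually_all.2 fun i => (?_ : Van x B fun z => H3.mp (fun j => a i j (π z))
      (f i z))).mono fun z hz hb i => hz i hb
    have h5 : ∀ j, AnalyticAt ℂ (fun z => a i j (π z)) x := fun j => (h3 i j).comp hπ
    have h6 := fun j => (h5 j).fun_mul ((hf i).1.fun_pow (j : ℕ))
    refine (mem_vi (((hf i).1.fun_pow _).fun_add (Finset.analyticAt_fun_sum _ fun j _ => h6 j))).1 ?_
    rw [← Ideal.Quotient.eq_zero_iff_mem, ← h2 i, gm_add ((hf i).1.fun_pow _)
      (Finset.analyticAt_fun_sum _ fun j _ => h6 j), gm_sum _ h6, gm_pow (hf i).1, map_add,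
      map_pow, map_sum]
    refine congrArg _ (Finset.sum_congr rfl fun j _ => ?_)
    rw [gm_mul (h5 j) ((hf i).1.fun_pow _), gm_pow (hf i).1, map_mul, map_pow, ← h4,
      ← pl_gm hπ (h3 i j)]
    rfl

end Vale.Agent.P269L.L
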