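import Vale.Agent.P269L.L.Defs
import Vale.Agent.P269.Holo.Morse

/-!
# Values of germs along a filter, simple roots of families of polynomials
-/

open Filter Topology Set Function Polynomial
open Vale.Agent.P298.H941 (O pull mk)
open Vale.Agent.P277Z.Oka

noncomputable section

namespace Vale.Agent.P269L.L

variable {E Y T : Type} [NormedAddCommGroup E] [NormedSpace ℂ E] [NormedAddCommGroup Y]
  [NormedSpace ℂ Y] {L : Filter T} {m : T → Y} {y : Y}

/-- The values of the germs at `y` along a map which tends to `y`. -/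
def gev (h : Tendsto m L (𝓝 y)) : O Y →+* Germ L ℂ :=
  Ideal.Quotient.lift (P298.H941.nu Y)
    { toFun := fun f => ((fun p => (f : Y → ℂ) (m p - y) : T → ℂ) : Germ L ℂ)
      map_one' := rfl
      map_mul' := fun _ _ => rfl
      map_zero' := rfl
      map_add' := fun _ _ => rfl }
    fun _ ha => Germ.coe_eq.2 (((tendsto_tr' y).comp h).eventually ha)

theorem gev_gm (h : Tendsto m L (𝓝 y)) {r : Y → ℂ} (hr : AnalyticAt ℂ r y) :
    gev h (gm y r) = ((fun p => r (m p) : T → ℂ) : Germ L ℂ) := by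
  rw [gm_eq hr]
  exact Germ.coe_eq.2 (.of_forall fun p => congrArg r (add_sub_cancel y (m p)))

theorem coe_sum {ι : Type*} (s : Finset ι) (f : ι → T → ℂ) :
    ((fun p => ∑ i ∈ s, f i p : T → ℂ) : Germ L ℂ) = ∑ i ∈ s, (f i : Germ L ℂ) := by
  have := map_sum (Germ.coeRingHom L) f s
  rwa [Finset.sum_fn] at this

theorem coe_prod {ι : Type*} (s : Finset ι) (f : ι → T → ℂ) :
    ((fun p => ∏ i ∈ s, f i p : T → ℂ) : Germ L ℂ) = ∏ i ∈ s, (f i : Germ L ℂ) := by
  have := map_prod (Germ.coeRingHom L) f s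
  rwa [Finset.prod_fn] at this

theorem gev_pg (h : Tendsto m L (𝓝 y)) {n : ℕ} {P : Y → ℂ[X]} (hP : PF y n P) (τ : T → ℂ) :
    (pg y n P).eval₂ (gev h) (τ : Germ L ℂ) =
      ((fun p => (P (m p)).eval (τ p) : T → ℂ) : Germ L ℂ) := by
  have e : (fun p => (P (m p)).eval (τ p)) =
      fun p => ∑ i ∈ Finset.range (n + 1), (P (m p)).coeff i * τ p ^ i :=
    funext fun p => hP.pf_eq (τ p, m p)
  rw [e, coe_sum, pg, eval₂_finsetSum]
  refine Finset.sum_congr rfl fun i _ => ?_
  rw [eval₂_monomial, gev_gm h (hP.ana i)]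
  rfl

theorem pg_der {n : ℕ} {P : Y → ℂ[X]} (hP : PF y n P) :
    pg y n (fun w => derivative (P w)) = derivative (pg y n P) := by
  refine Polynomial.ext fun i => ?_
  rw [(Nug.pf_der hP).coeff_pg, coeff_derivative, hP.coeff_pg]
  simp only [coeff_derivative]
  rw [gm_mul (hP.ana _) analyticAt_const, gm_const, map_add, map_natCast, map_one]

/-- The values on `B` of the classes of germs. -/
def dq (x : E) (B : Set E) : O E ⧸ vi x B →+* Germ (𝓝[B] x) ℂ :=
  Ideal.Quotient.lift (vi x B) (gev (m := id) (tendsto_id'.2 nhdsWithin_le_nhds)) fun a ha => by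
    obtain ⟨f, hf, rfl⟩ := gm_surj x a
    rw [gev_gm _ hf]
    exact Germ.coe_eq.2 (eventually_nhdsWithin_iff.2 ((mem_vi hf).1 ha))

theorem dq_mk {x : E} {B : Set E} {f : E → ℂ} (hf : AnalyticAt ℂ f x) :
    dq x B (Ideal.Quotient.mk _ (gm x f)) = (f : Germ (𝓝[B] x) ℂ) :=
  gev_gm (m := id) (tendsto_id'.2 nhdsWithin_le_nhds) hf

theorem dq_inj (x : E) (B : Set E) : Injective (dq x B) := by
  refine (injective_iff_map_eq_zero _).2 fun d hd => ?_
  obtain ⟨a, rfl⟩ := Ideal.Quotient.mk_surjective d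
  obtain ⟨f, hf, rfl⟩ := gm_surj x a
  rw [dq_mk hf] at hd
  exact Ideal.Quotient.eq_zero_iff_mem.2
    ((mem_vi hf).2 (eventually_nhdsWithin_iff.1 (Germ.coe_eq.1 hd)))

theorem tendsto_base {π : E → Y} {x : E} (h : AnalyticAt ℂ π x) (B : Set E) :
    Tendsto π (𝓝[B] x) (𝓝 (π x)) := h.continuousAt.tendsto.mono_left nhdsWithin_le_nhds

theorem dq_pq {π : E → Y} {x : E} (h : AnalyticAt ℂ π x) (B : Set E) :
    (dq x B).comp (pq B h) = gev (tendsto_base h B) := by
  ext a
  obtain ⟨r, hr, rfl⟩ := gm_surj (π x) a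
  rw [gev_gm _ hr, ← dq_mk (hr.fun_comp h), ← pl_gm h hr]
  rfl

/-- Simple roots are holomorphic functions of the parameter. -/
theorem roots_hol [FiniteDimensional ℂ Y] {N : ℕ} {P : Y → ℂ[X]} (hP : PF y N P)
    (hm : ∀ w, (P w).Monic ∧ (P w).natDegree = N)
    (hs : ∀ t, (P y).eval t = 0 → (derivative (P y)).eval t ≠ 0) :
    ∃ τ : Fin N → Y → ℂ, (∀ k, AnalyticAt ℂ (τ k) y) ∧
      ∀ᶠ w in 𝓝 y, Injective (fun k => τ k w) ∧ ∀ t, (P w).eval t = 0 ↔ ∃ k, t = τ k w := by
  classical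
  have hc : (P y).roots.toFinset.card = N := by
    rw [← P298.H941.card_roots_sum (hm y).2, Finset.card_eq_sum_ones]
    refine Finset.sum_congr rfl fun t ht => ?_
    have h0 : (P y).eval t = 0 := (mem_roots (hm y).1.ne_zero).1 (Multiset.mem_toFinset.1 ht)
    exact (P298.H941.rootMultiplicity_one (hm y).1.ne_zero h0 (hs t h0)).symm
  let r : Fin N → ℂ := fun k => ((Finset.equivFinOfCardEq hc).symm k).1
  have hr : Injective r := Subtype.val_injective.comp (Equiv.injective _)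
  have hr0 : ∀ k, (P y).eval (r k) = 0 := fun k => (mem_roots (hm y).1.ne_zero).1
    (Multiset.mem_toFinset.1 ((Finset.equivFinOfCardEq hc).symm k).2)
  have key : ∀ k, ∃ τ : Y → ℂ, AnalyticAt ℂ τ y ∧ τ y = r k ∧
      ∀ᶠ w in 𝓝 y, (P w).eval (τ w) = 0 := fun k => by
    have hd : HasFDerivAt (fun t => pf P (t, y))
        (ContinuousLinearMap.toSpanSingleton ℂ ((derivative (P y)).eval (r k))) (r k) :=
      ((P y).hasDerivAt (r k)).hasFDerivAt
    obtain ⟨τ, h1, h2, h3⟩ := P269.Holo.implicit (hP.ana_pf (r k)) (by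
      rw [hd.fderiv]
      exact ⟨fun s t e => mul_right_cancel₀ (hs _ (hr0 k)) (by simpa using e),
        fun t => ⟨t / (derivative (P y)).eval (r k), by
          simp [div_mul_cancel₀ _ (hs _ (hr0 k))]⟩⟩)
    refine ⟨τ, h1, h2, ?_⟩
    have h4 : Tendsto (fun w => (τ w, w)) (𝓝 y) (𝓝 (r k, y)) :=
      (h2 ▸ h1.continuousAt.tendsto).prodMk_nhds tendsto_id
    filter_upwards [h4.eventually h3] with w hw
    exact (hw.2 rfl).trans (hr0 k)
  choose τ h1 h2 h3 using key
  refine ⟨τ, h1, ?_⟩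
  have h4 : ∀ᶠ w in 𝓝 y, ∀ k l, k ≠ l → τ k w ≠ τ l w := by
    refine eventually_all.2 fun k => eventually_all.2 fun l => ?_
    by_cases e : k = l
    · exact .of_forall fun _ h => absurd e h
    · have := ((h1 k).sub (h1 l)).continuousAt.eventually_ne (y := 0)
        (sub_ne_zero.2 (by rw [h2, h2]; exact fun h => e (hr h)))
      exact this.mono fun w hw _ => sub_ne_zero.1 hw
  filter_upwards [h4, eventually_all.2 h3] with w h5 h6
  have h7 : Injective fun k => τ k w := fun k l e => by_contra fun h => h5 k l h e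
  refine ⟨h7, fun t => ⟨fun ht => ?_, fun ⟨k, e⟩ => e ▸ h6 k⟩⟩
  have h8 : Finset.univ.image (fun k => τ k w) = (P w).roots.toFinset := by
    refine Finset.eq_of_subset_of_card_le (fun s hs => ?_) ?_
    · obtain ⟨k, -, rfl⟩ := Finset.mem_image.1 hs
      exact Multiset.mem_toFinset.2 ((mem_roots (hm w).1.ne_zero).2 (h6 k))
    · rw [Finset.card_image_of_injective _ h7, Finset.card_univ, Fintype.card_fin]
      exact (Multiset.toFinset_card_le _).trans ((card_roots' _).trans (hm w).2.le)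
  have h9 : t ∈ (P w).roots.toFinset := Multiset.mem_toFinset.2 ((mem_roots (hm w).1.ne_zero).2 ht)
  rw [← h8] at h9
  obtain ⟨k, -, e⟩ := Finset.mem_image.1 h9
  exact ⟨k, e.symm⟩

end Vale.Agent.P269L.L
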