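import Mathlib

/-!
# A primitive element for finite reduced algebras over a domain of characteristic zero
-/

open Polynomial nonZeroDivisors TensorProduct

namespace Vale.Agent.P269L.L

theorem shift {K ι : Type*} [Field K] [CharZero K] [Finite ι] (f : ι → K[X]) (hf : ∀ i, f i ≠ 0) :
    ∃ c : ι → K, ∀ i j, i ≠ j → IsCoprime (taylor (-c i) (f i)) (taylor (-c j) (f j)) := by
  classical
  let Ω := AlgebraicClosure K
  obtain ⟨n, hn⟩ := exists_injective_nat ι
  have hT : (⋃ i, (f i).rootSet Ω).Finite := Set.finite_iUnion fun i => (f i).rootSet_finite Ω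
  have hB : ((algebraMap K Ω) ⁻¹' ⋃ i, ⋃ j, Set.image2 (fun r s => (r - s) / ((n j : Ω) - n i))
      (⋃ i, (f i).rootSet Ω) (⋃ i, (f i).rootSet Ω)).Finite :=
    (Set.finite_iUnion fun i => Set.finite_iUnion fun j => hT.image2 _ hT).preimage
      (algebraMap K Ω).injective.injOn
  obtain ⟨t, ht⟩ := hB.exists_notMem
  refine ⟨fun i => n i * t, fun i j hij =>
    (isCoprime_iff_aeval_ne_zero_of_isAlgClosed K Ω _ _).2 fun a => ?_⟩
  by_contra! h
  simp only [taylor_apply, aeval_comp, map_add, aeval_X, aeval_C] at h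
  have hne : (n j : Ω) - n i ≠ 0 := sub_ne_zero.2 fun e => hij (hn (Nat.cast_injective e)).symm
  refine ht (Set.mem_iUnion₂.2 ⟨i, j, _, Set.mem_iUnion.2 ⟨i, (mem_rootSet_of_ne (hf i)).2 h.1⟩,
    _, Set.mem_iUnion.2 ⟨j, (mem_rootSet_of_ne (hf j)).2 h.2⟩, ?_⟩)
  simp only [map_neg, map_mul, map_natCast]
  rw [div_eq_iff hne]
  ring

theorem prim (K A : Type*) [Field K] [CharZero K] [CommRing A] [Algebra K A] [Module.Finite K A]
    [IsReduced A] : ∃ u : A, ∀ a : A, ∃ p : K[X], aeval u p = a := by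
  have := IsArtinianRing.of_finite K A
  have h1 (m : MaximalSpectrum A) : ∃ α : A, ∀ a : A, ∃ p : K[X], aeval α p - a ∈ m.asIdeal := by
    have := m.isMaximal
    let _ := Ideal.Quotient.field m.asIdeal
    obtain ⟨β, hβ⟩ := Field.exists_primitive_element K (A ⧸ m.asIdeal)
    obtain ⟨α, rfl⟩ := Ideal.Quotient.mkₐ_surjective K m.asIdeal β
    refine ⟨α, fun a => ?_⟩
    have : Ideal.Quotient.mkₐ K m.asIdeal a ∈
        Algebra.adjoin K {Ideal.Quotient.mkₐ K m.asIdeal α} := by
      rw [← IntermediateField.adjoin_simple_toSubalgebra_of_isAlgebraic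
        (Algebra.IsAlgebraic.isAlgebraic _), hβ]
      trivial
    rw [Algebra.adjoin_singleton_eq_range_aeval] at this
    obtain ⟨p, hp⟩ := this
    refine ⟨p, Ideal.Quotient.eq.1 ?_⟩
    exact (aeval_algHom_apply (Ideal.Quotient.mkₐ K m.asIdeal) α p).symm.trans hp
  choose α hα using h1
  have hi (a : A) : IsIntegral K a := Algebra.IsIntegral.isIntegral a
  obtain ⟨c, hc⟩ := shift (fun m => minpoly K (α m)) fun m => minpoly.ne_zero (hi _)
  obtain ⟨u, hu⟩ := Ideal.exists_forall_sub_mem_ideal (I := MaximalSpectrum.asIdeal (R := A))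
    (fun _ _ h => MaximalSpectrum.isCoprime_of_ne h) fun m => α m + algebraMap K A (c m)
  have h2 (m) (p : K[X]) : aeval u (taylor (-c m) p) - aeval (α m) p ∈ m.asIdeal := by
    rw [taylor_apply, aeval_comp]
    rw [← eval_map_algebraMap p, ← eval_map_algebraMap p]
    refine Ideal.mem_of_dvd _ (sub_dvd_eval_sub _ _ _) ?_
    simpa [sub_add_eq_sub_sub, sub_right_comm u (α m), ← sub_eq_add_neg] using hu m
  refine ⟨u, fun a => ?_⟩
  choose p hp using fun m => hα m a
  obtain ⟨q, hq⟩ := Ideal.exists_forall_sub_mem_ideal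
    (I := fun m => Ideal.span {taylor (-c m) (minpoly K (α m))})
    (fun i j h => (Ideal.isCoprime_span_singleton_iff _ _).2 (hc i j h))
    fun m => taylor (-c m) (p m)
  refine ⟨q, sub_eq_zero.1 (IsNilpotent.eq_zero (mem_nilradical.1 ?_))⟩
  rw [IsArtinianRing.nilradical_eq_iInf]
  refine Ideal.mem_iInf.2 fun m => ?_
  obtain ⟨r, hr⟩ := Ideal.mem_span_singleton'.1 (hq m)
  have h3 := h2 m (minpoly K (α m))
  rw [minpoly.aeval, sub_zero] at h3
  have h4 := add_mem (add_mem (m.asIdeal.mul_mem_left (aeval u r) h3) (h2 m (p m))) (hp m)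
  rwa [← map_mul, hr, map_sub, sub_add_sub_cancel, sub_add_sub_cancel] at h4

theorem exists_hom {R D S : Type*} [CommRing R] [CommRing D] [CommRing S] [Algebra R D]
    [Algebra R S] {u : D} {t : S} {δ : R} (hδ : IsUnit (algebraMap R S δ))
    (h1 : ∀ d : D, ∃ p : R[X], δ • d = aeval u p) (h2 : ∀ p : R[X], aeval u p = 0 → aeval t p = 0) :
    ∃ θ : D →ₐ[R] S, θ u = t := by
  choose P hP using h1
  obtain ⟨e, he⟩ := hδ.exists_right_inv
  have can {x y : S} (h : δ • x = δ • y) : x = y := hδ.mul_left_cancel (by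
    simpa only [Algebra.smul_def] using h)
  have k0 (d : D) : δ • (e * aeval t (P d)) = aeval t (P d) := by
    rw [Algebra.smul_def, ← mul_assoc, he, one_mul]
  have key (r : R) (d : D) (p : R[X]) (h : r • d = aeval u p) :
      r • (e * aeval t (P d)) = aeval t p := by
    have := h2 (r • P d - δ • p) (by
      rw [map_sub, map_smul, map_smul, ← h, ← hP, smul_comm, sub_self])
    rw [map_sub, map_smul, map_smul, sub_eq_zero] at this
    exact can (by rw [smul_comm, k0, this])
  have kc (r : R) : e * aeval t (P (algebraMap R D r)) = algebraMap R S r := by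
    simpa using key 1 (algebraMap R D r) (C r) (by simp)
  refine ⟨{ toFun := fun d => e * aeval t (P d)
            map_one' := by simpa using kc 1
            map_zero' := by simpa only [map_zero] using kc 0
            map_add' := fun x y => can ?_
            map_mul' := fun x y => can (can ?_)
            commutes' := kc }, by simpa using key 1 u X (by simp)⟩
  · rw [← mul_smul, key (δ * δ) (x * y) (P x * P y) (by rw [map_mul, ← hP, ← hP, smul_mul_smul]),
      ← mul_smul, ← smul_mul_smul, k0, k0, map_mul]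
  · rw [key δ (x + y) (P x + P y) (by rw [map_add, ← hP, ← hP, smul_add]), smul_add, k0, k0,
      map_add]

theorem pe (R D : Type*) [CommRing R] [IsDomain R] [CharZero R] [CommRing D] [Algebra R D]
    [Module.Finite R D] [IsReduced D] : ∃ (u : D) (χ a b : R[X]) (δ : R), δ ≠ 0 ∧ χ.Monic ∧
      χ.natDegree = Module.finrank R D ∧ a * χ + b * derivative χ = C δ ∧ δ • aeval u χ = 0 ∧
      (∀ d : D, ∃ p : R[X], δ • d = aeval u p) ∧ ∀ (S : Type) [CommRing S] [Algebra R S] (t : S),
        IsUnit (algebraMap R S δ) → aeval t χ = 0 → ∃ θ : D →ₐ[R] S, θ u = t := by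
  let K := FractionRing R
  have inj := IsFractionRing.injective R K
  have : CharZero K := algebraRat.charZero K
  let j : D →ₐ[R] K ⊗[R] D := Algebra.TensorProduct.includeRight
  have hl : IsLocalizedModule R⁰ j.toLinearMap :=
    IsLocalization.tensorProduct_isLocalizedModule R⁰ K
  have hs (x : K ⊗[R] D) : ∃ (d : D) (s : R), s ≠ 0 ∧ s • x = j d := by
    obtain ⟨⟨d, s⟩, h⟩ := IsLocalizedModule.surj R⁰ j.toLinearMap x
    exact ⟨d, s, nonZeroDivisors.coe_ne_zero s, h⟩
  have hz {d : D} (h : j d = 0) : ∃ s : R, s ≠ 0 ∧ s • d = 0 := by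
    obtain ⟨s, h⟩ := (IsLocalizedModule.eq_zero_iff R⁰ j.toLinearMap).1 h
    exact ⟨s, nonZeroDivisors.coe_ne_zero s, h⟩
  have hc {s : R} (h0 : s ≠ 0) {x : K ⊗[R] D} (h : s • x = 0) : x = 0 := by
    rw [← algebraMap_smul K] at h
    exact (smul_eq_zero.1 h).resolve_left ((map_ne_zero_iff _ inj).2 h0)
  have : IsReduced (K ⊗[R] D) := ⟨fun x ⟨n, hn⟩ => by
    obtain ⟨d, s, h0, h⟩ := hs x
    obtain ⟨r, r0, hr⟩ := hz (d := d ^ n) (by rw [map_pow, ← h, _root_.smul_pow, hn, smul_zero])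
    have : r • d = 0 := IsNilpotent.eq_zero ⟨n + 1, by
      rw [_root_.smul_pow, pow_succ r, pow_succ d, mul_smul, ← smul_mul_assoc r, hr, zero_mul, smul_zero]⟩
    exact hc h0 (hc r0 (by rw [h, ← map_smul, this, map_zero]))⟩
  have hi (a : K ⊗[R] D) : IsIntegral K a := Algebra.IsIntegral.isIntegral a
  have sc {x : K ⊗[R] D} (h : ∀ a, ∃ p : K[X], aeval x p = a) {s : R} (h0 : s ≠ 0) (a) :
      ∃ p : K[X], aeval (s • x) p = a := by
    obtain ⟨p, hp⟩ := h a
    refine ⟨p.comp (C (algebraMap R K s)⁻¹ * X), ?_⟩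
    rw [aeval_comp, map_mul, aeval_C, aeval_X, ← Algebra.smul_def, ← algebraMap_smul K s,
      inv_smul_smul₀ ((map_ne_zero_iff _ inj).2 h0), hp]
  have dg {x : K ⊗[R] D} (h : ∀ a, ∃ p : K[X], aeval x p = a) :
      (minpoly K x).natDegree = Module.finrank R D := by
    rw [← IsLocalizedModule.finrank_eq R⁰ j.toLinearMap le_rfl,
      ← IsFractionRing.finrank_right_eq R K, (PowerBasis.ofAdjoinEqTop (hi x) (by
        rw [Algebra.adjoin_singleton_eq_range_aeval]
        exact top_unique fun a _ => h a)).finrank]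
    rfl
  obtain ⟨u₀, h₀⟩ := prim K (K ⊗[R] D)
  obtain ⟨u₁, s₁, s0, e₁⟩ := hs u₀
  have h₁ := sc h₀ s0
  rw [e₁] at h₁
  have m₁ := minpoly.monic (hi (j u₁))
  obtain ⟨χ, c1, c2, c3⟩ := lifts_and_natDegree_eq_and_monic
    (IsLocalization.scaleRoots_commonDenom_mem_lifts R⁰ (minpoly K (j u₁))
      (by rw [m₁.leadingCoeff]; exact one_mem _)) ((monic_scaleRoots_iff _).2 m₁)
  set s := IsLocalization.commonDenom R⁰ (minpoly K (j u₁)).support (minpoly K (j u₁)).coeff
  have h₂ := sc h₁ (nonZeroDivisors.coe_ne_zero s)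
  rw [← map_smul] at h₂
  set u := (s : R) • u₁
  rw [natDegree_scaleRoots, dg h₁] at c2
  have ev (p : R[X]) : aeval (j u) (p.map (algebraMap R K)) = j (aeval u p) := by
    rw [aeval_map_algebraMap, aeval_algHom_apply]
  have c4 : aeval (j u) (χ.map (algebraMap R K)) = 0 := by
    rw [c1, map_smul, ← algebraMap_smul K, Algebra.smul_def (A := K ⊗[R] D)]
    exact scaleRoots_aeval_eq_zero (minpoly.aeval _ _)
  have c5 : χ.map (algebraMap R K) = minpoly K (j u) :=
    eq_of_monic_of_dvd_of_natDegree_le (minpoly.monic (hi _)) (c3.map _) (minpoly.dvd _ _ c4)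
      (by rw [dg h₂, c3.natDegree_map, c2])
  obtain ⟨a', b', hab⟩ : (χ.map (algebraMap R K)).Separable := by
    rw [c5, PerfectField.separable_iff_squarefree]
    exact (minpoly.isRadical K _).squarefree (minpoly.ne_zero (hi _))
  obtain ⟨sa, sa0, ha⟩ := IsLocalization.integerNormalization_spec R⁰ a'
  obtain ⟨sb, sb0, hb⟩ := IsLocalization.integerNormalization_spec R⁰ b'
  obtain ⟨δ₂, d2, h2⟩ := hz ((ev χ).symm.trans c4)
  obtain ⟨δ₃, d3, d4⟩ := Submodule.annihilator_top_inter_nonZeroDivisors (R := R)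
    (M := D ⧸ LinearMap.range (aeval (R := R) u).toLinearMap) fun x => by
      obtain ⟨d, rfl⟩ := Submodule.Quotient.mk_surjective _ x
      obtain ⟨p, hp⟩ := h₂ (j d)
      obtain ⟨r, r0, hr⟩ := IsLocalization.integerNormalization_spec R⁰ p
      obtain ⟨r', r1, hr'⟩ := hz (d := r • d - aeval u (IsLocalization.integerNormalization R⁰ p))
        (by rw [map_sub, ← ev, hr, map_smul j r, ← hp, ← algebraMap_smul K r p,
          map_smul (aeval (j u)), algebraMap_smul, sub_self])
      refine ⟨⟨r' * r, mul_mem (mem_nonZeroDivisors_of_ne_zero r1) r0⟩, ?_⟩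
      refine (Submodule.Quotient.mk_eq_zero _).2 ⟨r' • IsLocalization.integerNormalization R⁰ p, ?_⟩
      rw [smul_sub, sub_eq_zero] at hr'
      simpa [mul_smul] using hr'.symm
  have h3 (d : D) : ∃ p : R[X], (δ₂ * δ₃ * (sa * sb)) • d = aeval u p := by
    obtain ⟨p, hp⟩ := (Submodule.Quotient.mk_eq_zero _).1
      (Submodule.mem_annihilator.1 d3 (Submodule.Quotient.mk d) trivial)
    refine ⟨(δ₂ * (sa * sb)) • p, ?_⟩
    rw [map_smul, show aeval u p = δ₃ • d from hp, ← mul_smul, mul_right_comm]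
  refine ⟨u, χ, (δ₂ * δ₃ * sb) • IsLocalization.integerNormalization R⁰ a',
    (δ₂ * δ₃ * sa) • IsLocalization.integerNormalization R⁰ b', δ₂ * δ₃ * (sa * sb),
    mul_ne_zero (mul_ne_zero d2 (nonZeroDivisors.ne_zero d4))
      (nonZeroDivisors.ne_zero (mul_mem sa0 sb0)), c3, c2, map_injective _ inj ?_, ?_, h3,
    fun S _ _ t hδ ht => exists_hom hδ h3 fun p hp => ?_⟩
  · rw [derivative_map] at hab
    simp only [Polynomial.map_add, Polynomial.map_mul, smul_eq_C_mul, map_C, ha, hb, map_mul,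
      ← algebraMap_smul K sa, ← algebraMap_smul K sb]
    linear_combination (C (algebraMap R K δ₂) * C (algebraMap R K δ₃) * C (algebraMap R K sa) *
      C (algebraMap R K sb)) * hab
  · rw [mul_assoc, mul_comm, mul_smul, h2, smul_zero]
  · obtain ⟨q, rfl⟩ := (map_dvd_map _ inj c3).1
      (c5 ▸ minpoly.dvd K (j u) (by rw [ev, hp, map_zero]) : _ ∣ p.map (algebraMap R K))
    rw [map_mul, ht, zero_mul]

end Vale.Agent.P269L.L
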