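import Vale.Agent.P269L.L.Cnt
import Vale.Agent.P269L.L.Fin
import Vale.Agent.P269L.L.Pe
import Vale.Agent.P269L.La.Ln
import Vale.Agent.P269L.Tx

/-!
# The number of sheets is the length
-/

open Filter Topology Set Function Polynomial
open Vale.Agent.P298.H941 (O)
open Vale.Agent.P277Z.Oka
open Vale.Agent.P287Q

noncomputable section

namespace Vale.Agent.P269L.L

variable {E Y F : Type} [NormedAddCommGroup E] [NormedSpace ℂ E] [NormedAddCommGroup Y]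
  [NormedSpace ℂ Y] [NormedAddCommGroup F] [NormedSpace ℂ F] [FiniteDimensional ℂ E]
  [FiniteDimensional ℂ Y] [FiniteDimensional ℂ F] {B : Set E} {x : E}

/-- The number of sheets is the rank. -/
theorem sheets {π : E → Y} (hB : H3.An B x) (hπ : AnalyticAt ℂ π x)
    (hi : ∀ᶠ z in 𝓝 x, z ∈ B → π z = π x → z = x) :
    letI := (pq B hπ).toAlgebra
    Sheets B x π (Module.finrank (O Y) (O E ⧸ vi x B)) := by
  let _ := (pq B hπ).toAlgebra
  obtain ⟨hf, hw⟩ := fin hB hπ hi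
  have : Module.Finite (O Y) (O E ⧸ vi x B) := hf
  have : IsReduced (O E ⧸ vi x B) := (Ideal.isRadical_iff_quotient_reduced _).1 (vi_radical x B)
  have : CharZero (O Y) := charZero_of_injective_algebraMap (algebraMap ℂ (O Y)).injective
  let c := (Module.finBasis ℂ E).equivFunL
  obtain ⟨N, a, ha, h0, hz⟩ := hw _ (fun i z => c (z - x) i) fun i => ⟨ana_crd c i, by simp⟩
  obtain ⟨u, χ, α, β, δ, h1, h2, h3, h4, h5, h6, h7⟩ := pe (O Y) (O E ⧸ vi x B)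
  rw [← h3]
  refine sheets_of hπ c ha h0 hz hB hi u h1 h2 h4 h5 h6 fun S _ ψ t k1 k2 => ?_
  let _ := ψ.toAlgebra
  obtain ⟨θ, e⟩ := h7 S t k1 k2
  exact ⟨θ, RingHom.ext θ.commutes, e⟩

omit [FiniteDimensional ℂ E] in
/-- Points with sheets and with non-zero last coordinate occur near the base point. -/
theorem Sheets.frequently {w : E → F} {ε : E → ℂ} {N : ℕ} (h0 : ε x = 0)
    (h : Sheets B x (fun z => (w z, ε z)) N) : ∃ U₀ ∈ 𝓝 x,
    (∀ U ∈ 𝓝 x, ∀ᶠ y in 𝓝 (w x, (0 : ℂ)), ∀ z ∈ U₀, z ∈ B → (w z, ε z) = y → z ∈ U) ∧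
    ∀ U ∈ 𝓝 x, U ⊆ U₀ →
      ∃ᶠ y in 𝓝 (w x, (0 : ℂ)), y.2 ≠ 0 ∧ Cov B U (fun z => (w z, ε z)) N y := by
  obtain ⟨δ, aδ, hδ, U₀, hU₀, h1, h2⟩ := h
  simp only [h0] at aδ hδ h1 h2
  refine ⟨U₀, hU₀, h1, fun U hU hUU => ?_⟩
  have h3 : ∃ᶠ y in 𝓝 (w x, (0 : ℂ)), y.2 * δ y ≠ 0 := fun k => by
    have k1 := (gm_eq_zero (analyticAt_snd.fun_mul aδ)).2 (k.mono fun _ => not_not.1)
    rw [gm_mul analyticAt_snd aδ] at k1
    exact hδ ((gm_eq_zero aδ).1 ((mul_eq_zero.1 k1).resolve_left (La.prime_snd (w x)).ne_zero))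
  exact (h3.and_eventually (h2 U hU hUU)).mono fun y k =>
    ⟨left_ne_zero_of_mul k.1, k.2 (right_ne_zero_of_mul k.1)⟩

variable {w : E → F} {ε : E → ℂ} (hB : H3.An B x) (hw : AnalyticAt ℂ w x) (hε : AnalyticAt ℂ ε x)
  (h0 : ε x = 0) (hd : ∀ᶠ z in 𝓝 x, z ∈ B → z ∈ closure (B \ {z | ε z = 0})) {s : F → E}
  (hs : AnalyticAt ℂ s (w x)) (hsx : s (w x) = x)
  (h1 : ∀ᶠ u in 𝓝 (w x), s u ∈ B ∧ ε (s u) = 0 ∧ w (s u) = u)
  (h2 : ∀ᶠ z in 𝓝 x, z ∈ B → ε z = 0 → z = s (w z)) {Q : Type} [CommRing Q] (ρ : O E →+* Q)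
  (hρ : Surjective ρ) (hk : RingHom.ker ρ = vi x B ⊔ Ideal.span {gm x ε})

include hB hw hε h0 hd hs hsx h1 h2 hρ hk in
theorem count' : ∃ N : ℕ, 0 < N ∧ Nontrivial Q ∧ (∀ q : PrimeSpectrum Q, IsMin q →
    Module.length (Localization.AtPrime q.asIdeal) (Localization.AtPrime q.asIdeal) = N) ∧
    (∀ m, Tx.Mlt Q m ↔ m = N) ∧ Sheets B x (fun z => (w z, ε z)) N := by
  have hi : ∀ᶠ z in 𝓝 x, z ∈ B → (w z, ε z) = (w x, ε x) → z = x := h2.mono fun z k k1 k2 => by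
    rw [k k1 ((Prod.ext_iff.1 k2).2.trans h0), show w z = w x from (Prod.ext_iff.1 k2).1, hsx]
  have hq := fun q hq => La.length_eq_rank hB hw hε h0 hd hs hsx h1 h2 ρ hρ hk q hq
    (fin hB (hw.prod hε) hi).1
  have hn : Nontrivial Q := by
    have hx : x ∈ B := hsx ▸ h1.self_of_nhds.1
    refine nontrivial_of_ne 1 0 fun e => ?_
    have k : RingHom.ker ρ ≤ IsLocalRing.maximalIdeal (O E) := by
      rw [hk]
      refine sup_le (fun a ha => ?_) ((Ideal.span_singleton_le_iff_mem _).2 ?_)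
      · obtain ⟨f, hf, rfl⟩ := gm_surj x a
        exact fun u => (isUnit_gm hf).1 u (((mem_vi hf).1 ha).self_of_nhds hx)
      · exact fun u => (isUnit_gm hε).1 u h0
    exact k (show ρ 1 = 0 by rw [map_one, e]) isUnit_one
  obtain ⟨p, hp⟩ := Ideal.nonempty_minimalPrimes (R := Q) (I := ⊥) bot_ne_top
  have hm : ∀ (p : Ideal Q) (_ : p.IsPrime), p ∈ minimalPrimes Q →
      IsMin (⟨p, inferInstance⟩ : PrimeSpectrum Q) := fun p _ hp =>
    PrimeSpectrum.isMin_iff.2 hp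
  have hp' := Ideal.IsMinimalPrime.isPrime hp
  refine ⟨_, ?_, hn, hq, fun m => ⟨fun ⟨p, k, k1, k2⟩ => ?_, fun k => ⟨p, hp', hp, ?_⟩⟩,
    sheets hB (hw.prod hε) hi⟩
  · have k := hq _ (hm p hp' hp)
    exact Nat.cast_pos.1 (k ▸ Module.length_pos)
  · rw [k2, Tx.len, hq _ (hm p k k1), ENat.toNat_natCast]
  · rw [k, Tx.len, hq _ (hm p hp' hp), ENat.toNat_natCast]

include hB hw hε h0 hd hs hsx h1 h2 hρ hk in
/-- **The number of sheets is the length.** -/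
theorem count (q : PrimeSpectrum Q) (hq : IsMin q) : ∃ N : ℕ,
    Module.length (Localization.AtPrime q.asIdeal) (Localization.AtPrime q.asIdeal) = N ∧
      Sheets B x (fun z => (w z, ε z)) N :=
  let ⟨N, _, _, k, _, k'⟩ := count' hB hw hε h0 hd hs hsx h1 h2 ρ hρ hk
  ⟨N, k q hq, k'⟩

end Vale.Agent.P269L.L
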