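import Vale.Agent.P269L.L.Main

/-!
# The sheets are manifolds, purity
-/

open Filter Topology Set Function
open Vale.Agent.P269.Holo

noncomputable section

namespace Vale.Agent.P269L.L

variable {E Y F : Type} [NormedAddCommGroup E] [NormedSpace ℂ E] [NormedAddCommGroup Y]
  [NormedSpace ℂ Y] [NormedAddCommGroup F] [NormedSpace ℂ F] {B U : Set E} {x : E} {π : E → Y}
  {N : ℕ} {y : Y} {φ : Fin N → Y → E}

omit [NormedSpace ℂ E] [NormedSpace ℂ Y] in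
/-- Near a point of a sheet the set is that sheet. -/
theorem sheet_loc (hφ : ∀ k, ContinuousAt (φ k) y) (hi : Injective fun k => φ k y)
    (h : ∀ᶠ y' in 𝓝 y, ∀ z, (z ∈ U ∧ z ∈ B ∧ π z = y') ↔ ∃ k, z = φ k y') (k : Fin N)
    (hU : U ∈ 𝓝 (φ k y)) (hπ : ContinuousAt π (φ k y)) :
    ∀ᶠ z in 𝓝 (φ k y), z ∈ B → φ k (π z) = z := by
  have h0 : π (φ k y) = y := ((h.self_of_nhds _).2 ⟨k, rfl⟩).2.2
  have h1 : Tendsto π (𝓝 (φ k y)) (𝓝 y) := hπ.tendsto.mono_right (congrArg 𝓝 h0).le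
  have h2 : ∀ l, ∀ᶠ z in 𝓝 (φ k y), l ≠ k → φ l (π z) ≠ z := fun l => by
    by_cases e : l = k
    · exact .of_forall fun _ h => absurd e h
    · have h3 : Tendsto (fun z => φ l (π z) - z) (𝓝 (φ k y)) (𝓝 (φ l y - φ k y)) :=
        ((hφ l).tendsto.comp h1).sub tendsto_id
      exact (h3.eventually_ne (sub_ne_zero.2 fun h => e (hi h))).mono fun z h _ => sub_ne_zero.1 h
  filter_upwards [h1.eventually h, hU, eventually_all.2 h2] with z k1 k2 k3 k4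
  obtain ⟨l, e⟩ := (k1 z).1 ⟨k2, k4, rfl⟩
  by_cases e' : l = k
  · exact e' ▸ e.symm
  · exact absurd e.symm (k3 l e')

variable [FiniteDimensional ℂ E] [FiniteDimensional ℂ Y]

theorem Cov.mfd (h : Cov B U π N y) (hU : IsOpen U) (hπ : ∀ z ∈ U, AnalyticAt ℂ π z) {z : E}
    (h1 : z ∈ U) (h2 : z ∈ B) (h3 : π z = y) : MfdAt B (Module.finrank ℂ Y) z := by
  have := FiniteDimensional.complete ℂ E
  have := FiniteDimensional.complete ℂ Y
  obtain ⟨φ, k1, k2, k3⟩ := h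
  obtain ⟨k, rfl⟩ := (k3.self_of_nhds z).1 ⟨h1, h2, h3⟩
  exact (MfdAt.univ y).iso (k1 k) (hπ _ h1) (k3.mono fun s l _ => ((l _).2 ⟨k, rfl⟩).2)
    ((sheet_loc (fun k => (k1 k).continuousAt) k2 k3 k (hU.mem_nhds h1)
      (hπ _ h1).continuousAt).mono fun s l l' => ⟨trivial, l l'⟩)

/-- **Purity.** -/
theorem Sheets.pure [FiniteDimensional ℂ F] {w : E → F} {ε : E → ℂ} {n : ℕ}
    (h : Sheets B x (fun z => (w z, ε z)) N) (hN : 0 < N) (hw : AnalyticAt ℂ w x)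
    (hε : AnalyticAt ℂ ε x) (h0 : ε x = 0) (hm : ∀ᶠ z in 𝓝 x, z ∈ B → ε z ≠ 0 → MfdAt B n z) :
    Module.finrank ℂ F + 1 = n := by
  obtain ⟨U₀, hU₀, -, h1⟩ := h.frequently h0
  obtain ⟨U, k1, k2, k3⟩ := mem_nhds_iff.1
    (inter_mem hU₀ (hm.and (hw.prod hε).eventually_analyticAt))
  obtain ⟨y, k4, k5⟩ := (h1 U (k2.mem_nhds k3) fun z hz => (k1 hz).1).exists
  obtain ⟨φ, -, -, k6⟩ := id k5
  obtain ⟨l1, l2, l3⟩ := (k6.self_of_nhds _).2 ⟨⟨0, hN⟩, rfl⟩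
  have k7 := (k5.mfd k2 (fun z hz => (k1 hz).2.2) l1 l2 l3).unique
    ((k1 l1).2.1 l2 (by rwa [← l3] at k4))
  rwa [Module.finrank_prod, Module.finrank_self] at k7

end Vale.Agent.P269L.L
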